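import Vale.Agent.P284.H731.Alb1
import Vale.Agent.P284.H409.Grp
import Vale.Agent.P284.H10.Psi

/-!
# P284 (helper608), program S, module S2: the full virtual Albanese map is equivariant under the whole
group
-/

open scoped Manifold ContDiff Topology Pointwise ComplexConjugate ComplexOrder
open Filter Set Metric

noncomputable section

namespace Vale.Agent.P284.H608.S

open Vale.Agent.P272.K Vale.Agent.P284.H894.V Vale.Agent.P284.H465.V17 Vale.Agent.P284.H894.G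
  Vale.Agent.P284.H731.S2 Vale.Agent.P284.H5.V Vale.Agent.P284.H894.W Vale.Agent.P284.H731.Alb

section
variable {n : ℕ} {X : Type} [TopologicalSpace X] [ChartedSpace (Cm n) X]
  {E : Type} [TopologicalSpace E] {p : E → X} {w : Chart n X → Cm n → Matrix (Fin n) (Fin n) ℂ}
  {Γ : Type} [Group Γ] [MulAction Γ E] {G K : Subgroup Γ} {q : ℕ} {F : E → Cm q} {c : Γ → Cm q}

theorem alb_one (hA : Alb p w G K F c) [Nonempty E] : c 1 = 0 := by
  have h := alb_add hA 1 G.one_mem 1 G.one_mem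
  rw [one_mul] at h
  exact left_eq_add.1 h

theorem alb_pow (hA : Alb p w G K F c) [Nonempty E] {g : Γ} (hg : g ∈ G) (k : ℕ) :
    c (g ^ k) = (k : ℝ) • c g := by
  induction k with
  | zero => simp [alb_one hA]
  | succ k ih =>
    rw [pow_succ, alb_add hA _ (G.pow_mem hg k) _ hg, ih]
    push_cast
    rw [add_smul, one_smul]

/-- Albanese data restrict to subgroups of finite index. -/
theorem alb_sub (hA : Alb p w G K F c) [Nonempty E] (G' : Subgroup Γ) (hfi : G'.FiniteIndex)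
    (hle : G' ≤ G) : Alb p w G' (K ⊓ G') F c where
  fi := hfi
  hol := hA.hol
  equiv g hg := hA.equiv g (hle hg)
  mem g := by
    rw [Subgroup.mem_inf, hA.mem]
    exact ⟨fun h => ⟨h.2, h.1.2⟩, fun h => ⟨⟨hle h.1, h.2⟩, h.1⟩⟩
  disc R := (hA.disc R).subset fun v ⟨⟨g, hg, h⟩, hv⟩ => ⟨⟨g, hle hg, h⟩, hv⟩
  span := by
    rw [eq_top_iff, ← hA.span, Submodule.span_le]
    rintro _ ⟨g, hg, rfl⟩
    obtain ⟨k, hk, -, hkg⟩ := G'.exists_pow_mem_of_index_ne_zero hfi.index_ne_zero g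
    have h1 := alb_pow hA hg k
    have hk0 : (k : ℝ) ≠ 0 := Nat.cast_ne_zero.2 hk.ne'
    have h2 : c g = (k : ℝ)⁻¹ • c (g ^ k) := by
      rw [h1, smul_smul, inv_mul_cancel₀ hk0, one_smul]
    rw [h2]
    exact Submodule.smul_mem _ _ (Submodule.subset_span ⟨_, hkg, rfl⟩)
  max G'' h1 h2 := hA.max G'' h1 (h2.trans hle)

theorem p_smul' (hG : IsGalois Γ p) (g : Γ) (y : E) : p (g • y) = p y :=
  ((hG.orb y (g • y)).2 ⟨g, rfl⟩).symm

/-- periods after conjugation -/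
theorem alb_conj (hA : Alb p w G K F c) [Nonempty E] (hN : G.Normal) (h : Γ) :
    ∃ Λ : Cm q →ₗ[ℝ] Cm q, ∀ g ∈ G, c (h * g * h⁻¹) = Λ (c g) := by
  have hadd := alb_add hA
  obtain ⟨Λ, hΛ⟩ := Vale.Agent.P284.H409.exists_lin (G := G) (fun g => c (g : Γ))
    (fun g k => hadd g g.2 k k.2)
    (fun R => (hA.disc R).subset fun v ⟨⟨g, h⟩, hv⟩ => ⟨⟨g, g.2, h⟩, hv⟩)
    (by
      rw [← hA.span]
      congr 1
      ext v
      exact ⟨fun ⟨g, h⟩ => ⟨g, g.2, h⟩, fun ⟨g, hg, h⟩ => ⟨⟨g, hg⟩, h⟩⟩)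
    (fun g => c (h * g * h⁻¹))
    (fun g k => by
      rw [← hadd _ (hN.conj_mem g g.2 h) _ (hN.conj_mem k k.2 h)]
      congr 1
      push_cast
      group)
    (fun g hg => by
      have hmul : ∀ g ∈ G, ∀ k ∈ G, c (h * (g * k) * h⁻¹) = c (h * g * h⁻¹) + c (h * k * h⁻¹) := by
        intro g hg k hk
        rw [← hadd _ (hN.conj_mem g hg h) _ (hN.conj_mem k hk h)]
        congr 1
        group
      funext i
      apply Complex.ext
      · exact hA.max G hA.fi le_rfl (fun x => (c (h * x * h⁻¹) i).re) (fun a ha b hb => by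
          show (c (h * (a * b) * h⁻¹) i).re = _
          rw [hmul a ha b hb]; rfl) g g.2 hg
      · exact hA.max G hA.fi le_rfl (fun x => (c (h * x * h⁻¹) i).im) (fun a ha b hb => by
          show (c (h * (a * b) * h⁻¹) i).im = _
          rw [hmul a ha b hb]; rfl) g g.2 hg)
  exact ⟨Λ, fun g hg => hΛ ⟨g, hg⟩⟩

/-- the real version -/
theorem alb_real [CompactSpace X] [Nonempty X] [ConnectedSpace E] (hG : IsGalois Γ p)
    (hA : Alb p w G K F c) (hN : G.Normal) (h : Γ) :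
    ∃ (Λ : Cm q →ₗ[ℝ] Cm q) (a : Cm q), ∀ y, F (h • y) = Λ (F y) + a := by
  obtain ⟨y₀⟩ := (inferInstance : Nonempty E)
  obtain ⟨Λ, hΛ⟩ := alb_conj hA hN h
  obtain ⟨B, hB⟩ := hA.hol
  have key : ∀ l : Cm q →ₗ[ℝ] ℝ, ∀ y, l (F (h • y)) - l (Λ (F y)) =
      l (F (h • y₀)) - l (Λ (F y₀)) := by
    intro l y
    obtain ⟨B₁, hB₁⟩ := Vale.Agent.P284.H10.phb_of_holB hB l
    obtain ⟨B₂, hB₂⟩ := Vale.Agent.P284.H10.phb_of_holB hB (l.comp Λ)
    have h1 : (fun y => l (F (h • y))) ∈ phb p w := ⟨B₁, phb_smul hG hB₁ h⟩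
    have h2 : (fun y => (l.comp Λ) (F y)) ∈ phb p w := ⟨B₂, hB₂⟩
    obtain ⟨B₃, hB₃⟩ := (phb p w).sub_mem h1 h2
    refine const_of_fi hG hB₃ G hA.fi (fun g hg y => ?_) y y₀
    show l (F (h • g • y)) - l (Λ (F (g • y))) = l (F (h • y)) - l (Λ (F y))
    have h3 : h • g • y = (h * g * h⁻¹) • h • y := by
      rw [smul_smul, smul_smul]; congr 1; group
    rw [h3, hA.equiv _ (hN.conj_mem g hg h), hA.equiv g hg, hΛ g hg, map_add, map_add, map_add]
    ring
  refine ⟨Λ, F (h • y₀) - Λ (F y₀), fun y => ?_⟩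
  funext i
  apply Complex.ext
  · have := key (Complex.reLm.comp ((LinearMap.proj i : Cm q →ₗ[ℂ] ℂ).restrictScalars ℝ)) y
    simp only [LinearMap.comp_apply, LinearMap.restrictScalars_apply, LinearMap.proj_apply,
      Complex.reLm_coe] at this
    simp only [Pi.add_apply, Pi.sub_apply, Complex.add_re, Complex.sub_re]
    linarith
  · have := key (Complex.imLm.comp ((LinearMap.proj i : Cm q →ₗ[ℂ] ℂ).restrictScalars ℝ)) y
    simp only [LinearMap.comp_apply, LinearMap.restrictScalars_apply, LinearMap.proj_apply,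
      Complex.imLm_coe] at this
    simp only [Pi.add_apply, Pi.sub_apply, Complex.add_im, Complex.sub_im]
    linarith

/-- uniqueness of the linear part -/
theorem real_unique (hA : Alb p w G K F c) [Nonempty E] {Λ Λ' : Cm q →ₗ[ℝ] Cm q} {a a' : Cm q}
    (h : ∀ y, Λ (F y) + a = Λ' (F y) + a') : Λ = Λ' ∧ a = a' := by
  obtain ⟨y₀⟩ := ‹Nonempty E›
  have h1 : Λ = Λ' := by
    refine LinearMap.ext_on hA.span ?_
    rintro _ ⟨g, hg, rfl⟩
    have h2 := h (g • y₀)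
    rw [hA.equiv g hg, map_add, map_add] at h2
    have h3 := h y₀
    have h4 : Λ (F y₀) + Λ (c g) + a - (Λ (F y₀) + a) =
        Λ' (F y₀) + Λ' (c g) + a' - (Λ' (F y₀) + a') := by rw [h2, h3]
    have h5 : Λ (F y₀) + Λ (c g) + a - (Λ (F y₀) + a) = Λ (c g) := by abel
    have h6 : Λ' (F y₀) + Λ' (c g) + a' - (Λ' (F y₀) + a') = Λ' (c g) := by abel
    rwa [h5, h6] at h4
  subst h1
  exact ⟨rfl, add_left_cancel (h y₀)⟩

/-- local representations near the same point agree -/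
theorem rep_unique' (hp : IsCoveringMap p) {W : Type*} {y : E} {e : Chart n X} (he : At e (p y))
    {f f' : Cm n → W} (h : ∀ᶠ y' in 𝓝 y, f (e (p y')) = f' (e (p y'))) :
    f =ᶠ[𝓝 (e (p y))] f' := by
  have h1 : Filter.map (fun y' => e (p y')) (𝓝 y) = 𝓝 (e (p y)) := by
    have h2 : Filter.map p (𝓝 y) = 𝓝 (p y) := hp.isLocalHomeomorph.map_nhds_eq y
    have h3 : Filter.map e (𝓝 (p y)) = 𝓝 (e (p y)) := e.map_nhds_eq he.2
    rw [← h3, ← h2, Filter.map_map]
    rfl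
  show ∀ᶠ z in 𝓝 (e (p y)), f z = f' z
  rw [← h1, Filter.eventually_map]
  exact h

/-- the linear part is `ℂ`-linear if there is a regular point -/
theorem real_smul (hG : IsGalois Γ p) (hA : Alb p w G K F c)
    (hr : ∃ y, Reg (n := n) p F y) {h : Γ} {Λ : Cm q →ₗ[ℝ] Cm q} {a : Cm q}
    (hΛ : ∀ y, F (h • y) = Λ (F y) + a) (z : ℂ) (v : Cm q) : Λ (z • v) = z • Λ v := by
  obtain ⟨y, hy⟩ := hr
  obtain ⟨B, hB⟩ := hA.hol
  set e := chartAt (Cm n) (p y) with he_def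
  have he : At e (p y) := ⟨chart_mem_atlas _ _, mem_chart_source _ _⟩
  obtain ⟨f, hf1, hf2, -⟩ := hB y e he
  have he' : At e (p (h • y)) := by rw [p_smul' hG]; exact he
  obtain ⟨f', hf1', hf2', -⟩ := hB (h • y) e he'
  rw [p_smul' hG] at hf2'
  have h1 : ∀ᶠ y' in 𝓝 y, f' (e (p y')) = (fun z => Λ (f z) + a) (e (p y')) := by
    filter_upwards [hf1, ((hG.cont h).tendsto y).eventually hf1'] with y' h1 h2
    rw [← h1, ← hΛ, h2, p_smul' hG]
  have h2 : f' =ᶠ[𝓝 (e (p y))] fun z => Λ (f z) + a :=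
    rep_unique' (f := f') (f' := fun z => Λ (f z) + a) hG.cov he h1
  have hd : DifferentiableAt ℂ f (e (p y)) := hf2.self_of_nhds
  have hd' : DifferentiableAt ℂ f' (e (p y)) := hf2'.self_of_nhds
  set Λc : Cm q →L[ℝ] Cm q := LinearMap.toContinuousLinearMap Λ with hΛc
  have h3 : HasFDerivAt (fun z => Λ (f z) + a)
      (Λc.comp ((fderiv ℂ f (e (p y))).restrictScalars ℝ)) (e (p y)) :=
    (Λc.hasFDerivAt.comp (e (p y)) (hd.hasFDerivAt.restrictScalars ℝ)).add_const a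
  have h4 : HasFDerivAt (fun z => Λ (f z) + a) ((fderiv ℂ f' (e (p y))).restrictScalars ℝ)
      (e (p y)) := (hd'.hasFDerivAt.restrictScalars ℝ).congr_of_eventuallyEq h2.symm
  have h5 : ∀ ξ, Λ (fderiv ℂ f (e (p y)) ξ) = fderiv ℂ f' (e (p y)) ξ := by
    intro ξ
    have := congrArg (fun L : Cm n →L[ℝ] Cm q => L ξ) (h3.unique h4)
    exact this
  obtain ⟨ξ, rfl⟩ := hy e f he hf1 v
  rw [← map_smul, h5, h5, map_smul]

/-- **S2**: the lift `F` of the full virtual Albanese map is equivariant under the whole group `Γ`, which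
acts on `ℂ^q` by affine maps; the linear part is a representation of `Γ / G`. -/
theorem alb_aff0 [CompactSpace X] [Nonempty X] [ConnectedSpace E] (hG : IsGalois Γ p)
    (hA : Alb p w G K F c) (hN : G.Normal) (hr : ∃ y, Reg (n := n) p F y) :
    ∃ (ρ : Γ →* (Cm q →ₗ[ℂ] Cm q)) (a : Γ → Cm q), (∀ h y, F (h • y) = ρ h (F y) + a h) ∧
      (∀ g ∈ G, ρ g = 1) ∧ ∀ g ∈ G, a g = c g := by
  choose Λ a hΛ using fun h => alb_real hG hA hN h
  have hmul : ∀ g h, Λ (g * h) = (Λ g).comp (Λ h) := by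
    intro g h
    refine (real_unique hA (a := a (g * h)) (a' := Λ g (a h) + a g) fun y => ?_).1
    rw [← hΛ, mul_smul, hΛ, hΛ, map_add, LinearMap.comp_apply, add_assoc]
  have hgG : ∀ g ∈ G, Λ g = LinearMap.id ∧ a g = c g := by
    intro g hg
    refine real_unique hA fun y => ?_
    rw [← hΛ, hA.equiv g hg]; rfl
  have hsm := fun h => real_smul hG hA hr (hΛ h)
  let ρ : Γ →* (Cm q →ₗ[ℂ] Cm q) :=
    { toFun := fun h => { toFun := Λ h, map_add' := (Λ h).map_add, map_smul' := hsm h }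
      map_one' := by
        ext1 i
        ext1
        show Λ 1 _ = _
        rw [(hgG 1 G.one_mem).1]; rfl
      map_mul' := fun g h => by
        refine LinearMap.ext fun v => ?_
        show Λ (g * h) v = Λ g (Λ h v)
        rw [hmul]; rfl }
  refine ⟨ρ, a, fun h y => hΛ h y, fun g hg => ?_, fun g hg => (hgG g hg).2⟩
  refine LinearMap.ext fun v => ?_
  show Λ g v = v
  rw [(hgG g hg).1]; rfl

/-- **N2**, with invertible linear parts and the cocycle identity. -/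
theorem alb_aff [CompactSpace X] [Nonempty X] [ConnectedSpace E] (hG : IsGalois Γ p)
    (hA : Alb p w G K F c) (hN : G.Normal) (hr : ∃ y, Reg (n := n) p F y) :
    ∃ (A : Γ →* (Cm q ≃ₗ[ℂ] Cm q)) (a : Γ → Cm q), (∀ h y, F (h • y) = A h (F y) + a h) ∧
      (∀ g ∈ G, A g = 1) ∧ (∀ g ∈ G, a g = c g) ∧ (∀ g h, a (g * h) = A g (a h) + a g) ∧
      ∀ h, ∀ g ∈ G, c (h * g * h⁻¹) = A h (c g) := by
  obtain ⟨ρ, a, h1, h2, h3⟩ := alb_aff0 hG hA hN hr
  obtain ⟨y₀⟩ := (inferInstance : Nonempty E)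
  let A : Γ →* (Cm q ≃ₗ[ℂ] Cm q) :=
    (LinearMap.GeneralLinearGroup.generalLinearEquiv ℂ (Cm q)).toMonoidHom.comp ρ.toHomUnits
  have hA' : ∀ g v, A g v = ρ g v := fun g v => rfl
  refine ⟨A, a, fun h y => by rw [hA', h1], fun g hg => ?_, h3, fun g h => ?_, fun h g hg => ?_⟩
  · refine LinearEquiv.ext fun v => ?_
    rw [hA', h2 g hg]; rfl
  · have h4 := h1 (g * h) y₀
    rw [mul_smul, h1, h1, map_mul, map_add] at h4
    rw [hA']
    have h5 : (ρ g * ρ h) (F y₀) = ρ g (ρ h (F y₀)) := rfl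
    rw [h5, add_assoc] at h4
    exact (add_left_cancel h4).symm
  · have h4 : h • g • y₀ = (h * g * h⁻¹) • h • y₀ := by
      rw [smul_smul, smul_smul]; congr 1; group
    have h5 : F (h • g • y₀) = F ((h * g * h⁻¹) • h • y₀) := by rw [h4]
    rw [hA.equiv _ (hN.conj_mem g hg h), h1 h (g • y₀), h1 h y₀, hA.equiv g hg, map_add] at h5
    rw [hA']
    have h7 : ρ h (F y₀) + a h + ρ h (c g) = ρ h (F y₀) + a h + c (h * g * h⁻¹) := by
      rw [← h5]; abel
    exact (add_left_cancel h7).symm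

/-- Albanese data with a normal subgroup `G`, normal kernel `K`, and periods extended to a twisted
cocycle on the whole group `Γ`. -/
theorem alb_normal [CompactSpace X] [Nonempty X] [ConnectedSpace E] (hG : IsGalois Γ p)
    (hA : Alb p w G K F c) (hr : ∃ y, Reg (n := n) p F y) :
    ∃ (G' K' : Subgroup Γ) (A : Γ →* (Cm q ≃ₗ[ℂ] Cm q)) (a : Γ → Cm q), G' ≤ G ∧ K' ≤ K ∧
      G'.Normal ∧ K'.Normal ∧ Alb p w G' K' F a ∧ (∀ h y, F (h • y) = A h (F y) + a h) ∧
      (∀ g ∈ G', A g = 1) ∧ (∀ g ∈ G', a g = c g) ∧ (∀ g h, a (g * h) = A g (a h) + a g) ∧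
      ∀ h, ∀ g ∈ G', a (h * g * h⁻¹) = A h (a g) := by
  have hne : Nonempty E := inferInstance
  have hfi : G.normalCore.FiniteIndex := by
    haveI := hA.fi
    infer_instance
  have hB := alb_sub hA G.normalCore hfi G.normalCore_le
  have hN : G.normalCore.Normal := inferInstance
  obtain ⟨A, a, h1, h2, h3, h4, h5⟩ := alb_aff hG hB hN hr
  have h6 : ∀ h, ∀ g ∈ G.normalCore, a (h * g * h⁻¹) = A h (a g) := by
    intro h g hg
    rw [h3 _ (hN.conj_mem g hg h), h5 h g hg, h3 g hg]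
  refine ⟨G.normalCore, K ⊓ G.normalCore, A, a, G.normalCore_le, inf_le_left, hN, ⟨?_⟩, ?_, h1, h2,
    h3, h4, h6⟩
  · intro k hk h
    rw [hB.mem] at hk ⊢
    refine ⟨hN.conj_mem k hk.1 h, ?_⟩
    rw [← h3 _ (hN.conj_mem k hk.1 h), h6 h k hk.1, h3 k hk.1, hk.2, map_zero]
  · exact
    { fi := hfi
      hol := hA.hol
      equiv := fun g hg y => by rw [hB.equiv g hg, h3 g hg]
      mem := fun g => by
        rw [hB.mem]
        exact ⟨fun h => ⟨h.1, by rw [h3 g h.1]; exact h.2⟩,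
          fun h => ⟨h.1, by rw [← h3 g h.1]; exact h.2⟩⟩
      disc := fun R => (hB.disc R).subset fun v ⟨⟨g, hg, h⟩, hv⟩ =>
        ⟨⟨g, hg, by rw [← h3 g hg]; exact h⟩, hv⟩
      span := by
        rw [← hB.span]
        congr 1
        ext v
        exact ⟨fun ⟨g, hg, h⟩ => ⟨g, hg, by rw [← h3 g hg]; exact h⟩,
          fun ⟨g, hg, h⟩ => ⟨g, hg, by rw [h3 g hg]; exact h⟩⟩
      max := fun G'' h7 h8 φ hφ g hg hg0 =>
        hB.max G'' h7 h8 φ hφ g hg (by rw [← h3 g (h8 hg)]; exact hg0) }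

end

end Vale.Agent.P284.H608.S
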